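import Vale.Agent.P237.Petty.Cor.Low20.Chunks
import Vale.Agent.P237.Petty.Cor.Low20.H2a.Data

/-!
# P237: kernel checks of boxes 24 to 24
-/

namespace Vale.Agent.P237.Petty.Cor.Low20.H2a

def check24_0 : cutAll dat.Z1
    ((boxAll dat box24).take 14)
  [.leaf, .leaf, .leaf, .leaf, .leaf, .leaf, .leaf, .leaf, .leaf, (.split 0 (.split 1 .leaf (.split
    0 .leaf (.split 1 .leaf .out))) (.split 1 (.split 0 .leaf .out) .out)), (.split 0 .leaf .leaf),
    (.split 0 (.split 2 (.split 1 (.split 0 (.split 2 .leaf (.split 1 (.split 0 .leaf (.split 2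
    .leaf .leaf)) .leaf)) .leaf) .leaf) (.split 1 (.split 0 .leaf .leaf) .leaf)) .leaf), (.split 2
    (.split 2 (.split 0 .leaf .leaf) (.split 0 .leaf .leaf)) (.split 2 (.split 0 .leaf .leaf)
    (.split 0 .leaf .leaf))), (.split 2 (.split 2 (.split 0 .leaf .leaf) (.split 0 .leaf .leaf))
    (.split 2 (.split 0 .leaf .leaf) (.split 0 .leaf .leaf)))] = true := by
  decide +kernel

def check24_1 : cutAll dat.Z1
    (((boxAll dat box24).drop 14).take 6)
  [(.split 2 (.split 2 (.split 0 .leaf .leaf) (.split 0 .leaf .leaf)) (.split 2 (.split 0 .leaf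
    .leaf) (.split 0 .leaf .leaf))), (.split 2 (.split 2 (.split 0 .leaf .leaf) (.split 0 .leaf
    .leaf)) (.split 2 (.split 0 .leaf .leaf) (.split 0 .leaf .leaf))), (.split 2 (.split 2 (.split 0
    .leaf .leaf) (.split 0 .leaf .leaf)) (.split 2 (.split 0 .leaf .leaf) (.split 0 .leaf .leaf))),
    (.split 2 (.split 2 (.split 0 .leaf .leaf) (.split 0 .leaf .leaf)) (.split 2 (.split 0 .leaf
    .leaf) (.split 0 .leaf .leaf))), (.split 2 (.split 2 (.split 0 .leaf .leaf) (.split 0 .leaf
    .leaf)) (.split 2 (.split 0 .leaf .leaf) (.split 0 .leaf .leaf))), .leaf] = true := by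
  decide +kernel

def check24_2 : cutAll dat.Z1
    ((((boxAll dat box24).drop 14).drop 6).take 5)
  [(.split 0 (.split 2 (.split 1 (.split 0 (.split 2 .leaf (.split 1 (.split 0 .leaf (.split 2 .leaf
    (.split 1 (.split 0 .leaf .leaf) .leaf))) .leaf)) .leaf) .leaf) (.split 1 (.split 0 .leaf .leaf)
    .leaf)) .leaf), (.split 2 (.split 2 (.split 0 .leaf .leaf) (.split 0 .leaf .leaf)) (.split 2
    (.split 0 .leaf .leaf) (.split 0 .leaf .leaf))), (.split 2 (.split 2 (.split 0 .leaf .leaf)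
    (.split 0 .leaf .leaf)) (.split 2 (.split 0 .leaf .leaf) (.split 0 .leaf .leaf))), (.split 2
    (.split 2 (.split 0 .leaf .leaf) (.split 0 .leaf .leaf)) (.split 2 (.split 0 .leaf .leaf)
    (.split 0 .leaf .leaf))), (.split 2 (.split 2 (.split 0 .leaf .leaf) (.split 0 .leaf .leaf))
    (.split 2 (.split 0 .leaf .leaf) (.split 0 .leaf .leaf)))] = true := by
  decide +kernel

def check24_3 : cutAll dat.Z1
    ((((boxAll dat box24).drop 14).drop 6).drop 5)
  [(.split 2 (.split 2 (.split 0 .leaf .leaf) (.split 0 .leaf .leaf)) (.split 2 (.split 0 .leaf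
    .leaf) (.split 0 .leaf .leaf))), (.split 2 (.split 2 (.split 0 .leaf .leaf) (.split 0 .leaf
    .leaf)) (.split 2 (.split 0 .leaf .leaf) (.split 0 .leaf .leaf))), (.split 2 (.split 2 (.split 0
    .leaf .leaf) (.split 0 .leaf .leaf)) (.split 2 (.split 0 .leaf .leaf) (.split 0 .leaf .leaf))),
    .leaf, (.split 0 (.split 1 .leaf (.split 0 .leaf (.split 1 .leaf .out))) (.split 1 (.split 0
    .leaf .out) .out)), .leaf, (.split 0 .leaf .leaf), .leaf, .leaf, .leaf, .leaf, .leaf, .leaf] = true := by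
  decide +kernel

theorem sound24 : BoxSound dat box24 ∧ TopSound dat box24 :=
  bound_of_boxAll
    (cutAll_of_take 14 check24_0
      (cutAll_of_take 6 check24_1
      (cutAll_of_take 5 check24_2
      check24_3)))

end Vale.Agent.P237.Petty.Cor.Low20.H2a
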