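import Vale.Agent.P237.Petty.Cor.Low20.Chunks
import Vale.Agent.P237.Petty.Cor.Low20.H2a.Data

/-!
# P237: kernel checks of boxes 12 to 13
-/

namespace Vale.Agent.P237.Petty.Cor.Low20.H2a

def check12_0 : cutAll dat.Z1
    ((boxAll dat box12).take 32)
  [.leaf, .leaf, .leaf, .leaf, .leaf, .leaf, .leaf, .leaf, .leaf, .leaf, .leaf, .leaf, .leaf, .leaf,
    .leaf, .leaf, .leaf, (.split 2 .leaf (.split 2 .leaf (.split 2 .leaf (.split 2 .leaf (.split 2
    .leaf .leaf))))), (.split 2 .leaf .leaf), .leaf, .leaf, .leaf, .leaf, .leaf, .leaf, .leaf,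
    (.split 2 .leaf (.split 2 .leaf (.split 2 .leaf (.split 2 .leaf (.split 2 .leaf .leaf))))),
    (.split 2 .leaf .leaf), .leaf, .leaf, .leaf, (.split 0 .leaf .leaf)] = true := by
  decide +kernel

def check12_1 : cutAll dat.Z1
    ((boxAll dat box12).drop 32)
  [.leaf, .leaf, .leaf, .leaf, (.split 0 (.split 1 .leaf .leaf) (.split 1 .leaf .leaf)), .leaf] = true := by
  decide +kernel

theorem sound12 : BoxSound dat box12 ∧ TopSound dat box12 :=
  bound_of_boxAll
    (cutAll_of_take 32 check12_0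
      check12_1)

def check13_0 : cutAll dat.Z1
    ((boxAll dat box13).take 27)
  [.leaf, .leaf, .leaf, .leaf, .leaf, .leaf, .leaf, .leaf, .leaf, .leaf, .leaf, .leaf, .leaf, .leaf,
    .leaf, .leaf, .leaf, (.split 2 .leaf (.split 2 .leaf .leaf)), (.split 0 (.split 2 .leaf (.split
    2 .leaf (.split 1 .leaf .leaf))) (.split 2 .leaf (.split 2 .leaf (.split 1 .leaf .leaf)))),
    (.split 2 (.split 2 (.split 0 .leaf .leaf) .leaf) .leaf), .leaf, .leaf, .leaf, .leaf, .leaf,
    .leaf, (.split 2 .leaf (.split 2 (.split 0 .leaf (.split 2 .leaf .leaf)) .leaf))] = true := by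
  decide +kernel

def check13_1 : cutAll dat.Z1
    ((boxAll dat box13).drop 27)
  [(.split 0 (.split 2 .leaf (.split 2 .leaf (.split 1 .leaf .leaf))) (.split 2 .leaf (.split 2
    .leaf (.split 1 .leaf .leaf)))), (.split 2 (.split 2 (.split 0 .leaf .leaf) .leaf) .leaf),
    .leaf, .leaf, (.split 0 .leaf .leaf), .leaf, .leaf, .leaf, .leaf, (.split 0 (.split 1 .leaf
    .leaf) (.split 1 .leaf .leaf)), .leaf] = true := by
  decide +kernel

theorem sound13 : BoxSound dat box13 ∧ TopSound dat box13 :=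
  bound_of_boxAll
    (cutAll_of_take 27 check13_0
      check13_1)

end Vale.Agent.P237.Petty.Cor.Low20.H2a
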