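import Vale.Agent.P237.Petty.Cor.Low20.Chunks
import Vale.Agent.P237.Petty.Cor.Low20.H2a.Data

/-!
# P237: kernel checks of boxes 17 to 19
-/

namespace Vale.Agent.P237.Petty.Cor.Low20.H2a

def check17_0 : cutAll dat.Z1
    ((boxAll dat box17).take 36)
  [.leaf, .leaf, .leaf, .leaf, .leaf, .leaf, .leaf, .leaf, .leaf, .leaf, .leaf, .leaf, .leaf, .leaf,
    .leaf, .leaf, .leaf, .leaf, .leaf, (.split 0 (.split 2 .leaf (.split 1 (.split 0 (.split 2 .leaf
    (.split 1 .leaf .leaf)) .leaf) .leaf)) .leaf), .leaf, .leaf, .leaf, .leaf, .leaf, .leaf, .leaf,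
    .leaf, .leaf, .leaf, .leaf, (.split 0 .leaf .leaf), .leaf, .leaf, .leaf, .leaf] = true := by
  decide +kernel

def check17_1 : cutAll dat.Z1
    ((boxAll dat box17).drop 36)
  [(.split 0 (.split 1 .leaf .leaf) (.split 1 .leaf .leaf)), .leaf] = true := by
  decide +kernel

theorem sound17 : BoxSound dat box17 ∧ TopSound dat box17 :=
  bound_of_boxAll
    (cutAll_of_take 36 check17_0
      check17_1)

def check18_0 : cutAll dat.Z1
    ((boxAll dat box18).take 36)
  [.leaf, .leaf, .leaf, .leaf, .leaf, .leaf, .leaf, .leaf, .leaf, .leaf, (.split 0 .leaf .leaf),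
    (.split 2 .leaf .leaf), .leaf, .leaf, .leaf, .leaf, .leaf, .leaf, .leaf, (.split 1 (.split 2
    .leaf (.split 1 (.split 2 .leaf (.split 1 .leaf .leaf)) .leaf)) .leaf), (.split 2 (.split 2
    .leaf .leaf) .leaf), .leaf, .leaf, .leaf, .leaf, .leaf, .leaf, .leaf, .leaf, .leaf, .leaf,
    .leaf, .leaf, .leaf, .leaf, .leaf] = true := by
  decide +kernel

def check18_1 : cutAll dat.Z1
    ((boxAll dat box18).drop 36)
  [(.split 0 (.split 1 .leaf .leaf) (.split 1 .leaf .leaf)), .leaf] = true := by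
  decide +kernel

theorem sound18 : BoxSound dat box18 ∧ TopSound dat box18 :=
  bound_of_boxAll
    (cutAll_of_take 36 check18_0
      check18_1)

def check19_0 : cutAll dat.Z1
    ((boxAll dat box19).take 23)
  [.leaf, .leaf, .leaf, .leaf, .leaf, (.split 0 .leaf (.split 1 .leaf .leaf)), .leaf, (.split 0
    .leaf (.split 1 .leaf .leaf)), .leaf, (.split 0 .leaf (.split 1 .leaf (.split 0 .leaf (.split 1
    .leaf (.split 0 (.split 1 .leaf .out) (.split 1 .leaf .out)))))), .leaf, (.split 2 (.split 2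
    .leaf .leaf) .leaf), .leaf, .leaf, .leaf, .leaf, .leaf, .leaf, .leaf, (.split 1 (.split 2 .leaf
    (.split 1 (.split 2 .leaf (.split 1 (.split 2 .leaf (.split 1 .leaf .leaf)) .leaf)) .leaf))
    .leaf), (.split 2 (.split 2 .leaf (.split 0 (.split 2 .leaf .leaf) .leaf)) .leaf), .leaf, .leaf] = true := by
  decide +kernel

def check19_1 : cutAll dat.Z1
    ((boxAll dat box19).drop 23)
  [.leaf, .leaf, .leaf, .leaf, .leaf, .leaf, (.split 1 .leaf (.split 0 .leaf (.split 1 .leaf (.split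
    1 .leaf (.split 0 (.split 1 .leaf .out) .out))))), .leaf, .leaf, .leaf, .leaf, .leaf, .leaf,
    (.split 0 (.split 1 .leaf .leaf) (.split 1 .leaf .leaf)), .leaf] = true := by
  decide +kernel

theorem sound19 : BoxSound dat box19 ∧ TopSound dat box19 :=
  bound_of_boxAll
    (cutAll_of_take 23 check19_0
      check19_1)

end Vale.Agent.P237.Petty.Cor.Low20.H2a
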