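import Vale.Agent.P237.Petty.Cor.Low20.Chunks
import Vale.Agent.P237.Petty.Cor.Low20.H2a.Data

/-!
# P237: kernel checks of boxes 20 to 21
-/

namespace Vale.Agent.P237.Petty.Cor.Low20.H2a

def check20_0 : cutAll dat.Z1
    ((boxAll dat box20).take 31)
  [.leaf, .leaf, .leaf, .leaf, .leaf, (.split 0 .leaf (.split 1 .leaf .leaf)), .leaf, .leaf, .leaf,
    (.split 0 .leaf (.split 1 .leaf (.split 0 .leaf (.split 1 .leaf (.split 0 (.split 1 .leaf .out)
    (.split 1 .leaf .out)))))), (.split 0 .leaf .leaf), .leaf, .leaf, .leaf, .leaf, .leaf, .leaf,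
    .leaf, .leaf, .leaf, .leaf, .leaf, .leaf, .leaf, .leaf, .leaf, .leaf, .leaf, .leaf, (.split 0
    .leaf (.split 1 .leaf (.split 0 .leaf (.split 1 .leaf (.split 0 .leaf (.split 1 .leaf
    .out)))))), .leaf] = true := by
  decide +kernel

def check20_1 : cutAll dat.Z1
    ((boxAll dat box20).drop 31)
  [(.split 0 .leaf (.split 1 (.split 0 .leaf .leaf) (.split 0 .leaf .leaf))), .leaf, .leaf, .leaf,
    .leaf, .leaf, .leaf] = true := by
  decide +kernel

theorem sound20 : BoxSound dat box20 ∧ TopSound dat box20 :=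
  bound_of_boxAll
    (cutAll_of_take 31 check20_0
      check20_1)

def check21_0 : cutAll dat.Z1
    ((boxAll dat box21).take 17)
  [.leaf, .leaf, .leaf, .leaf, .leaf, (.split 0 .leaf (.split 1 .leaf .leaf)), .leaf, (.split 0
    .leaf (.split 1 .leaf .leaf)), .leaf, (.split 0 .leaf (.split 1 .leaf (.split 0 (.split 1 .leaf
    (.split 0 (.split 1 .leaf .out) (.split 1 .leaf .out))) (.split 1 .leaf .out)))), (.split 0
    (.split 1 (.split 0 .leaf (.split 1 (.split 0 .leaf .leaf) .leaf)) .leaf) .leaf), .leaf, .leaf,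
    .leaf, .leaf, (.split 2 (.split 2 (.split 0 .leaf .leaf) (.split 0 .leaf .leaf)) (.split 2
    (.split 0 .leaf .leaf) (.split 0 .leaf .leaf))), (.split 2 (.split 2 (.split 0 .leaf .leaf)
    (.split 0 .leaf .leaf)) (.split 2 (.split 0 .leaf .leaf) (.split 0 .leaf .leaf)))] = true := by
  decide +kernel

def check21_1 : cutAll dat.Z1
    (((boxAll dat box21).drop 17).take 9)
  [(.split 2 (.split 2 (.split 0 .leaf .leaf) (.split 0 .leaf .leaf)) (.split 2 (.split 0 .leaf
    .leaf) (.split 0 .leaf .leaf))), (.split 2 (.split 2 (.split 0 .leaf .leaf) (.split 0 .leaf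
    .leaf)) (.split 2 (.split 0 .leaf .leaf) (.split 0 .leaf .leaf))), (.split 2 .leaf (.split 2
    .leaf (.split 0 .leaf .leaf))), .leaf, .leaf, .leaf, (.split 2 .leaf (.split 2 .leaf .leaf)),
    (.split 2 (.split 2 (.split 0 .leaf .leaf) (.split 0 .leaf .leaf)) (.split 2 (.split 0 .leaf
    .leaf) (.split 0 .leaf .leaf))), (.split 2 (.split 2 (.split 0 .leaf .leaf) (.split 0 .leaf
    .leaf)) (.split 2 (.split 0 .leaf .leaf) (.split 0 .leaf .leaf)))] = true := by
  decide +kernel

def check21_2 : cutAll dat.Z1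
    (((boxAll dat box21).drop 17).drop 9)
  [(.split 2 (.split 2 (.split 0 .leaf .leaf) (.split 0 .leaf .leaf)) (.split 2 (.split 0 .leaf
    .leaf) (.split 0 .leaf .leaf))), (.split 2 (.split 2 (.split 0 .leaf .leaf) (.split 0 .leaf
    .leaf)) (.split 2 (.split 0 .leaf .leaf) (.split 0 .leaf .leaf))), .leaf, (.split 1 .leaf
    (.split 0 (.split 1 .leaf (.split 1 .leaf (.split 0 .leaf (.split 1 .leaf .out)))) (.split 1
    .leaf (.split 1 (.split 0 .leaf .out) .out)))), .leaf, (.split 0 .leaf .leaf), .leaf, .leaf,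
    .leaf, .leaf, .leaf, .leaf] = true := by
  decide +kernel

theorem sound21 : BoxSound dat box21 ∧ TopSound dat box21 :=
  bound_of_boxAll
    (cutAll_of_take 17 check21_0
      (cutAll_of_take 9 check21_1
      check21_2))

end Vale.Agent.P237.Petty.Cor.Low20.H2a
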