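import Vale.Agent.P237.Petty.Cor.Low20.Chunks
import Vale.Agent.P237.Petty.Cor.Low20.H2a.Data

/-!
# P237: kernel checks of boxes 22 to 22
-/

namespace Vale.Agent.P237.Petty.Cor.Low20.H2a

def check22_0 : cutAll dat.Z1
    ((boxAll dat box22).take 15)
  [.leaf, .leaf, .leaf, .leaf, .leaf, (.split 0 .leaf (.split 1 .leaf .leaf)), .leaf, .leaf, .leaf,
    (.split 0 .leaf (.split 1 .leaf (.split 0 (.split 1 .leaf (.split 0 (.split 1 .leaf .out) .out))
    (.split 1 .leaf .out)))), (.split 0 (.split 1 (.split 0 .leaf (.split 1 (.split 0 (.split 1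
    (.split 0 .leaf .leaf) .leaf) .leaf) .leaf)) .leaf) .leaf), (.split 2 .leaf .leaf), .leaf,
    (.split 2 .leaf (.split 2 (.split 0 .leaf .leaf) (.split 0 .leaf .leaf))), (.split 2 (.split 2
    (.split 0 .leaf .leaf) (.split 0 .leaf .leaf)) (.split 2 (.split 0 .leaf .leaf) (.split 0 .leaf
    .leaf)))] = true := by
  decide +kernel

def check22_1 : cutAll dat.Z1
    (((boxAll dat box22).drop 15).take 7)
  [(.split 2 (.split 2 (.split 0 .leaf .leaf) (.split 0 .leaf .leaf)) (.split 2 (.split 0 .leaf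
    .leaf) (.split 0 .leaf .leaf))), (.split 2 (.split 2 (.split 0 .leaf .leaf) (.split 0 .leaf
    .leaf)) (.split 2 (.split 0 .leaf .leaf) (.split 0 .leaf .leaf))), (.split 2 (.split 2 (.split 0
    .leaf .leaf) (.split 0 .leaf .leaf)) (.split 2 (.split 0 .leaf .leaf) (.split 0 .leaf .leaf))),
    (.split 2 (.split 2 (.split 0 .leaf .leaf) (.split 0 .leaf .leaf)) (.split 2 (.split 0 .leaf
    .leaf) (.split 0 .leaf .leaf))), (.split 2 .leaf (.split 2 .leaf (.split 0 (.split 2 .leaf
    (.split 2 .leaf (.split 0 .leaf .leaf))) .leaf))), (.split 2 .leaf .leaf), .leaf] = true := by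
  decide +kernel

def check22_2 : cutAll dat.Z1
    ((((boxAll dat box22).drop 15).drop 7).take 6)
  [(.split 2 .leaf (.split 2 (.split 0 .leaf .leaf) (.split 0 .leaf .leaf))), (.split 2 (.split 2
    (.split 0 .leaf .leaf) (.split 0 .leaf .leaf)) (.split 2 (.split 0 .leaf .leaf) (.split 0 .leaf
    .leaf))), (.split 2 (.split 2 (.split 0 .leaf .leaf) (.split 0 .leaf .leaf)) (.split 2 (.split 0
    .leaf .leaf) (.split 0 .leaf .leaf))), (.split 2 (.split 2 (.split 0 .leaf .leaf) (.split 0
    .leaf .leaf)) (.split 2 (.split 0 .leaf .leaf) (.split 0 .leaf .leaf))), (.split 2 (.split 2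
    (.split 0 .leaf .leaf) (.split 0 .leaf .leaf)) (.split 2 (.split 0 .leaf .leaf) (.split 0 .leaf
    .leaf))), (.split 2 (.split 2 (.split 0 .leaf .leaf) (.split 0 .leaf .leaf)) (.split 2 (.split 0
    .leaf .leaf) (.split 0 .leaf .leaf)))] = true := by
  decide +kernel

def check22_3 : cutAll dat.Z1
    ((((boxAll dat box22).drop 15).drop 7).drop 6)
  [.leaf, (.split 0 .leaf (.split 1 .leaf (.split 0 (.split 1 .leaf (.split 0 (.split 1 .leaf .out)
    .out)) (.split 1 .leaf .out)))), .leaf, .leaf, .leaf, .leaf, .leaf, .leaf, .leaf, .leaf] = true := by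
  decide +kernel

theorem sound22 : BoxSound dat box22 ∧ TopSound dat box22 :=
  bound_of_boxAll
    (cutAll_of_take 15 check22_0
      (cutAll_of_take 7 check22_1
      (cutAll_of_take 6 check22_2
      check22_3)))

end Vale.Agent.P237.Petty.Cor.Low20.H2a
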