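import Vale.Agent.P237.Petty.Cor.Low20.Chunks
import Vale.Agent.P237.Petty.Cor.Low20.H2a.Data

/-!
# P237: kernel checks of boxes 0 to 2
-/

namespace Vale.Agent.P237.Petty.Cor.Low20.H2a

def check0_0 : cutAll dat.Z1
    ((boxAll dat box0).take 34)
  [.leaf, .leaf, .leaf, .leaf, .leaf, .leaf, .leaf, .leaf, (.split 0 (.split 1 (.split 0 (.split 1
    (.split 0 .leaf .leaf) .leaf) .leaf) .leaf) .leaf), .leaf, (.split 0 .leaf .leaf), .leaf, .leaf,
    .leaf, .leaf, .leaf, .leaf, .leaf, .leaf, .leaf, .leaf, .leaf, .leaf, .leaf, .leaf, .leaf,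
    .leaf, .leaf, .leaf, .leaf, .leaf, .leaf, .leaf, .leaf] = true := by
  decide +kernel

def check0_1 : cutAll dat.Z1
    ((boxAll dat box0).drop 34)
  [(.split 0 (.split 0 (.split 0 .leaf (.split 0 .leaf (.split 0 .leaf (.split 0 (.split 0 .leaf
    (.split 0 .leaf .leaf)) (.split 0 (.split 0 (.split 0 (.split 0 .leaf .leaf) .leaf) .leaf)
    .leaf))))) .leaf) .leaf), .leaf, .leaf, .leaf, .leaf, .leaf] = true := by
  decide +kernel

theorem sound0 : BoxSound dat box0 ∧ TopSound dat box0 :=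
  bound_of_boxAll
    (cutAll_of_take 34 check0_0
      check0_1)

def check1_0 : cutAll dat.Z1
    ((boxAll dat box1).take 32)
  [.leaf, .leaf, .leaf, .leaf, .leaf, .leaf, .leaf, .leaf, .leaf, .leaf, (.split 0 .leaf .leaf),
    .leaf, .leaf, .leaf, .leaf, .leaf, .leaf, (.split 2 .leaf (.split 2 .leaf (.split 2 .leaf
    (.split 2 .leaf (.split 2 .leaf .leaf))))), .leaf, .leaf, .leaf, .leaf, .leaf, .leaf, .leaf,
    .leaf, (.split 2 .leaf (.split 2 .leaf (.split 2 .leaf (.split 2 .leaf (.split 2 .leaf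
    .leaf))))), .leaf, .leaf, .leaf, .leaf, .leaf] = true := by
  decide +kernel

def check1_1 : cutAll dat.Z1
    ((boxAll dat box1).drop 32)
  [(.split 0 (.split 1 (.split 0 .leaf .leaf) (.split 0 .leaf .leaf)) (.split 1 (.split 0 .leaf
    .leaf) (.split 0 .leaf .leaf))), .leaf, (.split 0 (.split 0 (.split 1 (.split 0 .leaf .leaf)
    (.split 0 .leaf .leaf)) .leaf) .leaf), .leaf, .leaf, .leaf, .leaf, .leaf] = true := by
  decide +kernel

theorem sound1 : BoxSound dat box1 ∧ TopSound dat box1 :=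
  bound_of_boxAll
    (cutAll_of_take 32 check1_0
      check1_1)

def check2_0 : cutAll dat.Z1
    ((boxAll dat box2).take 32)
  [.leaf, .leaf, .leaf, .leaf, .leaf, .leaf, .leaf, .leaf, .leaf, .leaf, (.split 0 (.split 1 .leaf
    (.split 0 .leaf .leaf)) .leaf), .leaf, .leaf, .leaf, .leaf, .leaf, .leaf, (.split 2 .leaf
    (.split 2 .leaf (.split 2 .leaf (.split 2 .leaf (.split 2 .leaf .leaf))))), .leaf, .leaf, .leaf,
    .leaf, .leaf, .leaf, .leaf, .leaf, (.split 2 .leaf (.split 2 .leaf (.split 2 .leaf (.split 2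
    .leaf (.split 2 .leaf .leaf))))), .leaf, .leaf, .leaf, .leaf, .leaf] = true := by
  decide +kernel

def check2_1 : cutAll dat.Z1
    ((boxAll dat box2).drop 32)
  [(.split 0 .leaf (.split 1 .leaf (.split 0 .leaf .leaf))), .leaf, (.split 0 (.split 1 (.split 0
    .leaf .leaf) (.split 0 .leaf .leaf)) .leaf), .leaf, .leaf, .leaf, .leaf, .leaf] = true := by
  decide +kernel

theorem sound2 : BoxSound dat box2 ∧ TopSound dat box2 :=
  bound_of_boxAll
    (cutAll_of_take 32 check2_0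
      check2_1)

end Vale.Agent.P237.Petty.Cor.Low20.H2a
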