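import Vale.Agent.P237.Petty.Cor.Low20.Chunks
import Vale.Agent.P237.Petty.Cor.Low20.H2a.Data

/-!
# P237: kernel checks of boxes 23 to 23
-/

namespace Vale.Agent.P237.Petty.Cor.Low20.H2a

def check23_0 : cutAll dat.Z1
    ((boxAll dat box23).take 25)
  [.leaf, .leaf, .leaf, .leaf, .leaf, .leaf, .leaf, .leaf, .leaf, (.split 0 .leaf (.split 1 .leaf
    (.split 0 (.split 1 .leaf .out) (.split 1 (.split 0 .leaf .out) .out)))), .leaf, (.split 2 .leaf
    (.split 2 (.split 0 (.split 2 .leaf .leaf) .leaf) .leaf)), .leaf, .leaf, .leaf, .leaf, .leaf,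
    .leaf, .leaf, (.split 2 .leaf (.split 0 (.split 2 .leaf (.split 0 .leaf (.split 2 .leaf (.split
    0 .leaf .leaf)))) .leaf)), (.split 2 (.split 2 .leaf (.split 0 .leaf .leaf)) (.split 2 (.split 0
    (.split 2 (.split 2 .leaf .leaf) .leaf) .leaf) .leaf)), .leaf, .leaf, .leaf, .leaf] = true := by
  decide +kernel

def check23_1 : cutAll dat.Z1
    ((boxAll dat box23).drop 25)
  [.leaf, .leaf, .leaf, (.split 2 .leaf (.split 2 .leaf (.split 0 .leaf .leaf))), (.split 0 .leaf
    (.split 1 .leaf (.split 0 (.split 1 .leaf .out) (.split 1 .leaf .out)))), .leaf, .leaf, .leaf,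
    .leaf, .leaf, .leaf, .leaf, .leaf] = true := by
  decide +kernel

theorem sound23 : BoxSound dat box23 ∧ TopSound dat box23 :=
  bound_of_boxAll
    (cutAll_of_take 25 check23_0
      check23_1)

end Vale.Agent.P237.Petty.Cor.Low20.H2a
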